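import Vale.Agent.P252.Rigidity.General.Spec
import Vale.Agent.P252.Cert.PolyPSD

/-!
# Frame jets of five variables and their block coordinates

In the first frame `τ = (Z,0,0,0,0)` and `v = (X,Y,0,0,0)`, in the second `τ = (X,Y,0,0,0)` and
`v = (Z,0,0,0,0)`; no scale enters. The jet then splits into one scalar block (nine coordinates),
one block of five for each axis `e₂, e₃, e₄`, and one block of three for each pair of these axes,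
taken for the trace free part.
-/

namespace Vale.Agent.P252.General.Cert5

open Finset Vale.Agent.P100T.PosCheck

noncomputable section

/-- The free values of a frame jet. -/
structure Par : Type where
  h00 : ℝ
  h01 : ℝ
  h11 : ℝ
  h02 : ℝ
  h12 : ℝ
  h03 : ℝ
  h13 : ℝ
  h04 : ℝ
  h14 : ℝ
  h22 : ℝ
  h23 : ℝ
  h24 : ℝ
  h33 : ℝ
  h34 : ℝ
  a00 : ℝ
  a01 : ℝ
  a11 : ℝ
  b11 : ℝ
  a02 : ℝ
  a12 : ℝ
  b12 : ℝ
  a03 : ℝ
  a13 : ℝ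
  b13 : ℝ
  a04 : ℝ
  a14 : ℝ
  b14 : ℝ
  a22 : ℝ
  a23 : ℝ
  a24 : ℝ
  a33 : ℝ
  a34 : ℝ
  b22 : ℝ
  b23 : ℝ
  b24 : ℝ
  b33 : ℝ
  b34 : ℝ
  e : ℝ

namespace Par

variable (p : Par)

/-- `D² log det` for given `|τ|²`. -/
def mH (Q : ℝ) : Matrix (Fin 5) (Fin 5) ℝ :=
  !![p.h00, p.h01, p.h02, p.h03, p.h04; p.h01, p.h11, p.h12, p.h13, p.h14;
    p.h02, p.h12, p.h22, p.h23, p.h24; p.h03, p.h13, p.h23, p.h33, p.h34;
    p.h04, p.h14, p.h24, p.h34, 6 / 7 * Q - p.h00 - p.h11 - p.h22 - p.h33]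

/-- `D³u(e₀, ·, ·)` for given `τ₀`. -/
def mA (t0 : ℝ) : Matrix (Fin 5) (Fin 5) ℝ :=
  !![p.a00, p.a01, p.a02, p.a03, p.a04; p.a01, p.a11, p.a12, p.a13, p.a14;
    p.a02, p.a12, p.a22, p.a23, p.a24; p.a03, p.a13, p.a23, p.a33, p.a34;
    p.a04, p.a14, p.a24, p.a34, t0 - p.a00 - p.a11 - p.a22 - p.a33]

/-- `D³u(e₁, ·, ·)` for given `τ₁`. -/
def mB (t1 : ℝ) : Matrix (Fin 5) (Fin 5) ℝ :=
  !![p.a01, p.a11, p.a12, p.a13, p.a14; p.a11, p.b11, p.b12, p.b13, p.b14;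
    p.a12, p.b12, p.b22, p.b23, p.b24; p.a13, p.b13, p.b23, p.b33, p.b34;
    p.a14, p.b14, p.b24, p.b34, t1 - p.a01 - p.b11 - p.b22 - p.b33]

/-- The scalar block. -/
def x0 (Y : ℝ) : Fin 9 → ℝ := ![p.h00, p.h01, p.h11, p.a00, p.a01, p.a11, Y * p.b11, 1, p.e]

/-- The blocks of the axes `e₂, e₃, e₄`. -/
def x1 (Y : ℝ) : Fin 3 → Fin 5 → ℝ :=
  ![![p.h02, p.h12, p.a02, p.a12, Y * p.b12],
    ![p.h03, p.h13, p.a03, p.a13, Y * p.b13],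
    ![p.h04, p.h14, p.a04, p.a14, Y * p.b14]]

/-- The trace free part of the lower corner, for given `|τ|²`, `τ₀`, `τ₁`. -/
def x2 (Y Q t0 t1 : ℝ) : Fin 3 → Fin 3 → Fin 3 → ℝ :=
  let sH := 6 / 7 * Q - p.h00 - p.h11
  let sA := t0 - p.a00 - p.a11
  let sB := t1 - p.a01 - p.b11
  ![![![p.h22 - sH / 3, p.a22 - sA / 3, Y * (p.b22 - sB / 3)],
      ![p.h23, p.a23, Y * p.b23],
      ![p.h24, p.a24, Y * p.b24]],
    ![![p.h23, p.a23, Y * p.b23],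
      ![p.h33 - sH / 3, p.a33 - sA / 3, Y * (p.b33 - sB / 3)],
      ![p.h34, p.a34, Y * p.b34]],
    ![![p.h24, p.a24, Y * p.b24],
      ![p.h34, p.a34, Y * p.b34],
      ![2 / 3 * sH - p.h22 - p.h33, 2 / 3 * sA - p.a22 - p.a33,
        Y * (2 / 3 * sB - p.b22 - p.b33)]]]

end Par

variable (X Y Z : ℝ) (p : Par) (S₂ S₃ S₄ : Matrix (Fin 5) (Fin 5) ℝ)

/-- A jet in the first frame. -/
def jetI : Jet 5 where
  T := ![p.mA Z, p.mB 0, S₂, S₃, S₄]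
  H := p.mH (Z ^ 2)
  t := ![Z, 0, 0, 0, 0]
  v := ![X, Y, 0, 0, 0]
  e := p.e

/-- A jet in the second frame. -/
def jetII : Jet 5 where
  T := ![p.mA X, p.mB Y, S₂, S₃, S₄]
  H := p.mH (X ^ 2 + Y ^ 2)
  t := ![X, Y, 0, 0, 0]
  v := ![Z, 0, 0, 0, 0]
  e := p.e

lemma C_jetI (z : Fin 2) : (jetI X Y Z p S₂ S₃ S₄).C z =
    ![Z • p.mA Z, X • p.mA Z + Y • p.mB 0] z := by
  fin_cases z <;> simp [Jet.C, Jet.Z, jetI, Fin.sum_univ_five]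

lemma C_jetII (z : Fin 2) : (jetII X Y Z p S₂ S₃ S₄).C z =
    ![X • p.mA X + Y • p.mB Y, Z • p.mA X] z := by
  fin_cases z <;> simp [Jet.C, Jet.Z, jetII, Fin.sum_univ_five]

/-- A symmetric matrix of expressions as a quadratic form. -/
def qf {m : ℕ} (A : Fin m → Fin m → Ex) (ξ : Fin m → ℝ) : ℝ :=
  ∑ k, ∑ l, ξ k * PolyPSD.evalAt (A k l) (X, Y, Z) * ξ l

/-- The block forms; a pair of axes carries half of the last form. -/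
def blocks (A₀ : Fin 9 → Fin 9 → Ex) (A₁ : Fin 5 → Fin 5 → Ex) (A₂ : Fin 3 → Fin 3 → Ex)
    (Q t0 t1 : ℝ) : ℝ :=
  qf X Y Z A₀ (p.x0 Y) + (∑ i, qf X Y Z A₁ (p.x1 Y i)) +
    (∑ i, ∑ j, qf X Y Z A₂ (p.x2 Y Q t0 t1 i j)) / 2

end

/-- A monomial with an integer coefficient. -/
def m3 (c : ℤ) (i j k : ℕ) : Ex :=
  .mul (.num c) (.mul (.pow .x i) (.mul (.pow .y j) (.pow .z k)))

end Vale.Agent.P252.General.Cert5
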