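import Vale.Agent.P252.Rigidity.General.Cert4.Reduce
import Vale.Agent.P252.Rigidity.General.Cert5.Jets

/-!
# From the two frames to the algebraic inequality in five variables

A lower bound `δ F^k - C₀ e² F^(k-2)` for the polynomial numerator of the flux on the two families
of frame jets gives `CertIneq 5 P`; `S` is any positive ratio separating the two frames.
-/

namespace Vale.Agent.P252.General

open scoped Matrix
open Finset

noncomputable section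

namespace Cert5

/-- The free values of a jet of five variables. -/
def parOf (J : Jet 5) : Par :=
  ⟨J.H 0 0, J.H 0 1, J.H 1 1, J.H 0 2, J.H 1 2, J.H 0 3, J.H 1 3, J.H 0 4, J.H 1 4,
    J.H 2 2, J.H 2 3, J.H 2 4, J.H 3 3, J.H 3 4,
    J.T 0 0 0, J.T 0 0 1, J.T 0 1 1, J.T 1 1 1, J.T 0 0 2, J.T 0 1 2, J.T 1 1 2,
    J.T 0 0 3, J.T 0 1 3, J.T 1 1 3, J.T 0 0 4, J.T 0 1 4, J.T 1 1 4,
    J.T 0 2 2, J.T 0 2 3, J.T 0 2 4, J.T 0 3 3, J.T 0 3 4,
    J.T 1 2 2, J.T 1 2 3, J.T 1 2 4, J.T 1 3 3, J.T 1 3 4, J.e⟩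

variable {J : Jet 5} (hJ : J.Valid)
include hJ

lemma mA_parOf : J.T 0 = (parOf J).mA (J.t 0) := by
  have s := fun a b c => (hJ.symT a b c).2
  have tr := hJ.trT 0
  simp only [Matrix.trace, Matrix.diag, Fin.sum_univ_five] at tr
  ext i j
  fin_cases i <;> fin_cases j <;>
    first
      | rfl
      | exact s 0 _ _
      | (simp [Par.mA, parOf]; linarith)

lemma mB_parOf : J.T 1 = (parOf J).mB (J.t 1) := by
  have s := fun a b c => (hJ.symT a b c).2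
  have r := fun a b c => (hJ.symT a b c).1
  have tr := hJ.trT 1
  simp only [Matrix.trace, Matrix.diag, Fin.sum_univ_five, r 1 0 0, s 0 1 0] at tr
  ext i j
  fin_cases i <;> fin_cases j <;>
    first
      | rfl
      | exact r 1 0 _
      | exact s 1 _ _
      | exact (r 1 0 0).trans (s 0 1 0)
      | exact (s 1 _ 0).trans (r 1 0 _)
      | (simp [Par.mB, parOf]; linarith)

lemma mH_parOf {Q : ℝ} (hQ : J.t ⬝ᵥ J.t = Q) : J.H = (parOf J).mH Q := by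
  have s : ∀ a b, J.H a b = J.H b a := fun a b => (congrFun (congrFun hJ.symH a) b).symm
  have tr := hJ.trH
  simp only [Matrix.trace, Matrix.diag, Fin.sum_univ_five, hQ] at tr
  norm_num at tr
  ext i j
  fin_cases i <;> fin_cases j <;>
    first
      | rfl
      | exact s _ _
      | (simp [Par.mH, parOf]; linarith)

/-- A valid jet in the first frame. -/
lemma eq_jetI (h₁ : ∀ i : Fin 5, 1 ≤ i.val → J.t i = 0) (h₂ : ∀ i : Fin 5, 2 ≤ i.val → J.v i = 0) :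
    J = jetI (J.v 0) (J.v 1) (J.t 0) (parOf J) (J.T 2) (J.T 3) (J.T 4) := by
  have e1 : J.t 1 = 0 := h₁ 1 le_rfl
  have e2 : J.t 2 = 0 := h₁ 2 (by decide)
  have e3 : J.t 3 = 0 := h₁ 3 (by decide)
  have e4 : J.t 4 = 0 := h₁ 4 (by decide)
  have f2 : J.v 2 = 0 := h₂ 2 le_rfl
  have f3 : J.v 3 = 0 := h₂ 3 (by decide)
  have f4 : J.v 4 = 0 := h₂ 4 (by decide)
  refine J.eq_mk ?_ (mH_parOf hJ ?_) ?_ ?_ rfl
  · funext i
    fin_cases i
    · exact mA_parOf hJ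
    · exact (mB_parOf hJ).trans (by rw [e1]; rfl)
    · rfl
    · rfl
    · rfl
  · simp [dotProduct, Fin.sum_univ_five, e1, e2, e3, e4, sq]
  · funext i
    fin_cases i <;> simp [e1, e2, e3, e4]
  · funext i
    fin_cases i <;> simp [f2, f3, f4]

/-- A valid jet in the second frame. -/
lemma eq_jetII (h₁ : ∀ i : Fin 5, 1 ≤ i.val → J.v i = 0) (h₂ : ∀ i : Fin 5, 2 ≤ i.val → J.t i = 0) :
    J = jetII (J.t 0) (J.t 1) (J.v 0) (parOf J) (J.T 2) (J.T 3) (J.T 4) := by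
  have e2 : J.t 2 = 0 := h₂ 2 le_rfl
  have e3 : J.t 3 = 0 := h₂ 3 (by decide)
  have e4 : J.t 4 = 0 := h₂ 4 (by decide)
  have f1 : J.v 1 = 0 := h₁ 1 le_rfl
  have f2 : J.v 2 = 0 := h₁ 2 (by decide)
  have f3 : J.v 3 = 0 := h₁ 3 (by decide)
  have f4 : J.v 4 = 0 := h₁ 4 (by decide)
  refine J.eq_mk ?_ (mH_parOf hJ ?_) ?_ ?_ rfl
  · funext i
    fin_cases i
    · exact mA_parOf hJ
    · exact mB_parOf hJ
    · rfl
    · rfl
    · rfl
  · simp [dotProduct, Fin.sum_univ_five, e2, e3, e4, sq]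
  · funext i
    fin_cases i <;> simp [e2, e3, e4]
  · funext i
    fin_cases i <;> simp [f1, f2, f3, f4]

omit hJ

/-- The numerator inequality on the two frames gives the pointwise inequality. -/
theorem certIneq5_of_frames (P : Params) (hk : 0 < P.kap) (hdeg : 4 < P.deg) (he : P.e0 ≠ 0)
    (ha : P.deg + 1 < (P.a : ℝ)) (hhom : P.Homog) {k : ℕ} (hk2 : 2 ≤ k)
    (hm : P.e0 - 1 + k = P.deg / 2) {S δ C₀ : ℝ} (hS : 0 < S) (hδ : 0 < δ) (hC : 0 ≤ C₀)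
    (hI : ∀ X Y Z p S₂ S₃ S₄, |X| ≤ Z → 0 ≤ Y → Y ≤ Z →
      δ * (jetI X Y (S * Z) p S₂ S₃ S₄).bigF P ^ k -
          C₀ * (jetI X Y (S * Z) p S₂ S₃ S₄).e ^ 2 *
            (jetI X Y (S * Z) p S₂ S₃ S₄).bigF P ^ (k - 2) ≤
        (jetI X Y (S * Z) p S₂ S₃ S₄).num P)
    (hII : ∀ X Y Z p S₂ S₃ S₄, |X| ≤ Z → 0 ≤ Y → Y ≤ Z →
      δ * (jetII (S * X) (S * Y) Z p S₂ S₃ S₄).bigF P ^ k -
          C₀ * (jetII (S * X) (S * Y) Z p S₂ S₃ S₄).e ^ 2 *
            (jetII (S * X) (S * Y) Z p S₂ S₃ S₄).bigF P ^ (k - 2) ≤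
        (jetII (S * X) (S * Y) Z p S₂ S₃ S₄).num P) :
    CertIneq 5 P := by
  set K := Real.sqrt (2 * C₀ / δ) with hK
  have hK0 : 0 ≤ K := Real.sqrt_nonneg _
  refine ⟨hk, hdeg, he, ha, hhom, δ / 2, C₀ * K ^ (P.deg / 2 - 2), by positivity,
    mul_nonneg hC (Real.rpow_nonneg hK0 _), fun J hJ => ?_⟩
  have frame : ∀ J : Jet 5, J.Valid → ∃ J' : Jet 5, J'.flux P = J.flux P ∧ J'.e = J.e ∧
      J'.d 0 0 = J.d 0 0 ∧
      δ * J'.bigF P ^ k - C₀ * J'.e ^ 2 * J'.bigF P ^ (k - 2) ≤ J'.num P := by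
    intro J hJ
    by_cases hc : S ^ 2 * J.d 1 1 ≤ J.d 0 0
    · obtain ⟨J', hV, hfl, hee, hd, hz, hz0, hw, hw1⟩ :=
        Jet.exists_frame (by norm_num) 0 J hJ
      refine ⟨J', hfl P, hee, hd 0 0, ?_⟩
      have ht : J'.t ⬝ᵥ J'.t = J'.t 0 ^ 2 := by
        simp [dotProduct, Fin.sum_univ_five, show J'.t 1 = 0 from hz 1 le_rfl,
          show J'.t 2 = 0 from hz 2 (by decide), show J'.t 3 = 0 from hz 3 (by decide),
          show J'.t 4 = 0 from hz 4 (by decide), sq]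
      have hv : J'.v ⬝ᵥ J'.v = J'.v 0 ^ 2 + J'.v 1 ^ 2 := by
        simp [dotProduct, Fin.sum_univ_five, show J'.v 2 = 0 from hw 2 le_rfl,
          show J'.v 3 = 0 from hw 3 (by decide), show J'.v 4 = 0 from hw 4 (by decide), sq]
      rw [← hd, ← hd, show J'.d 1 1 = _ from hv, show J'.d 0 0 = _ from ht] at hc
      have hZ : S * (J'.t 0 / S) = J'.t 0 := mul_div_cancel₀ _ hS.ne'
      have ht0 : 0 ≤ J'.t 0 / S := div_nonneg hz0 hS.le
      have hv1 : 0 ≤ J'.v 1 := hw1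
      have hc' : J'.v 0 ^ 2 + J'.v 1 ^ 2 ≤ (J'.t 0 / S) ^ 2 := by
        rw [div_pow, le_div_iff₀ (by positivity)]
        linarith
      rw [eq_jetI hV hz hw, ← hZ]
      refine hI _ _ _ _ _ _ _ (abs_le_of_sq_le_sq ?_ ht0) hv1 (abs_le_of_sq_le_sq' ?_ ht0).2
      · nlinarith [sq_nonneg (J'.v 1)]
      · nlinarith [sq_nonneg (J'.v 0)]
    · obtain ⟨J', hV, hfl, hee, hd, hz, hz0, hw, hw1⟩ :=
        Jet.exists_frame (by norm_num) 1 J hJ
      refine ⟨J', hfl P, hee, hd 0 0, ?_⟩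
      have hv : J'.v ⬝ᵥ J'.v = J'.v 0 ^ 2 := by
        simp [dotProduct, Fin.sum_univ_five, show J'.v 1 = 0 from hz 1 le_rfl,
          show J'.v 2 = 0 from hz 2 (by decide), show J'.v 3 = 0 from hz 3 (by decide),
          show J'.v 4 = 0 from hz 4 (by decide), sq]
      have ht : J'.t ⬝ᵥ J'.t = J'.t 0 ^ 2 + J'.t 1 ^ 2 := by
        simp [dotProduct, Fin.sum_univ_five, show J'.t 2 = 0 from hw 2 le_rfl,
          show J'.t 3 = 0 from hw 3 (by decide), show J'.t 4 = 0 from hw 4 (by decide), sq]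
      rw [← hd, ← hd, show J'.d 1 1 = _ from hv, show J'.d 0 0 = _ from ht, not_le] at hc
      have hv0 : 0 ≤ J'.v 0 := hz0
      have ht1 : 0 ≤ J'.t 1 / S := div_nonneg hw1 hS.le
      have hX : S * (J'.t 0 / S) = J'.t 0 := mul_div_cancel₀ _ hS.ne'
      have hY : S * (J'.t 1 / S) = J'.t 1 := mul_div_cancel₀ _ hS.ne'
      have hc' : (J'.t 0 / S) ^ 2 + (J'.t 1 / S) ^ 2 ≤ J'.v 0 ^ 2 := by
        rw [div_pow, div_pow, ← add_div, div_le_iff₀ (by positivity)]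
        linarith
      rw [eq_jetII hV hz hw, ← hX, ← hY]
      refine hII _ _ _ _ _ _ _ (abs_le_of_sq_le_sq ?_ hv0) ht1 (abs_le_of_sq_le_sq' ?_ hv0).2
      · nlinarith [sq_nonneg (J'.t 1 / S)]
      · nlinarith [sq_nonneg (J'.t 0 / S)]
  obtain ⟨J', hfl, hee, hd, hnum⟩ := frame J hJ
  rw [← hfl, ← hd, ← hee]
  have hpos : 0 < J'.e := hee ▸ hJ.e_pos
  have h00 := J'.d_self_nonneg 0
  have h11 := J'.d_self_nonneg 1
  have hFnn : 0 ≤ J'.bigF P := add_nonneg h00 (mul_nonneg hk.le h11)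
  have hmne : P.deg / 2 ≠ 0 := by linarith
  have hC' : 0 ≤ C₀ * K ^ (P.deg / 2 - 2) * J'.e ^ (P.deg / 2) :=
    mul_nonneg (mul_nonneg hC (Real.rpow_nonneg hK0 _)) (Real.rpow_nonneg hpos.le _)
  rcases hFnn.eq_or_lt with hF | hF
  · rw [J'.flux_eq_zero P hk he hF.symm]
    have hd00 : J'.d 0 0 = 0 := by
      have := hF
      rw [Jet.bigF] at this
      nlinarith
    rw [hd00, Real.zero_rpow hmne, mul_zero]
    linarith
  set F := J'.bigF P
  have hA : J'.d 0 0 ^ (P.deg / 2) ≤ F ^ (P.deg / 2) :=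
    Real.rpow_le_rpow h00 (le_add_of_nonneg_right (mul_nonneg hk.le h11)) (by linarith)
  have h4 : F ^ (P.e0 - 1) * F ^ k = F ^ (P.deg / 2) := by
    rw [← Real.rpow_natCast F k, ← Real.rpow_add hF]
    congr 1
  have h2 : F ^ (P.e0 - 1) * F ^ (k - 2) = F ^ (P.deg / 2 - 2) := by
    rw [← Real.rpow_natCast F (k - 2), ← Real.rpow_add hF]
    congr 1
    push_cast [Nat.cast_sub hk2]
    linarith
  have hflux := mul_le_mul_of_nonneg_left hnum (Real.rpow_nonneg hF.le (P.e0 - 1))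
  rw [← J'.flux_eq_num P hF] at hflux
  have hY : C₀ * J'.e ^ 2 * F ^ (P.deg / 2 - 2) ≤
      δ / 2 * F ^ (P.deg / 2) + C₀ * K ^ (P.deg / 2 - 2) * J'.e ^ (P.deg / 2) := by
    have hFs : F ^ (P.deg / 2) = F ^ (P.deg / 2 - 2) * F ^ 2 := by
      rw [← Real.rpow_natCast F 2, ← Real.rpow_add hF]; norm_num
    have hFm : 0 ≤ F ^ (P.deg / 2 - 2) := Real.rpow_nonneg hF.le _
    rcases le_total (C₀ * J'.e ^ 2) (δ / 2 * F ^ 2) with h | h
    · rw [hFs]
      nlinarith [mul_le_mul_of_nonneg_left h hFm]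
    · have hFK : F ≤ K * J'.e := by
        rw [hK, ← Real.sqrt_sq hF.le, ← Real.sqrt_sq hpos.le, ← Real.sqrt_mul (by positivity)]
        refine Real.sqrt_le_sqrt ?_
        rw [div_mul_eq_mul_div, le_div_iff₀ hδ]
        nlinarith
      calc C₀ * J'.e ^ 2 * F ^ (P.deg / 2 - 2)
          ≤ C₀ * J'.e ^ 2 * (K * J'.e) ^ (P.deg / 2 - 2) :=
            mul_le_mul_of_nonneg_left (Real.rpow_le_rpow hF.le hFK (by linarith))
              (mul_nonneg hC (sq_nonneg _))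
        _ = C₀ * K ^ (P.deg / 2 - 2) * (J'.e ^ 2 * J'.e ^ (P.deg / 2 - 2)) := by
            rw [Real.mul_rpow hK0 hpos.le]; ring
        _ = C₀ * K ^ (P.deg / 2 - 2) * J'.e ^ (P.deg / 2) := by
            rw [← Real.rpow_natCast J'.e 2, ← Real.rpow_add hpos]; norm_num
        _ ≤ _ := le_add_of_nonneg_left (by positivity)
  rw [show F ^ (P.e0 - 1) * (δ * F ^ k - C₀ * J'.e ^ 2 * F ^ (k - 2)) =
      δ * (F ^ (P.e0 - 1) * F ^ k) - C₀ * J'.e ^ 2 * (F ^ (P.e0 - 1) * F ^ (k - 2)) by ring,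
    h4, h2] at hflux
  nlinarith [mul_le_mul_of_nonneg_left hA hδ.le]

end Cert5

end

end Vale.Agent.P252.General
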