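import Vale.Agent.P252.Rigidity.General.Cert5.Point
import Vale.Agent.P252.Rigidity.General.Cert5.Reduce

/-!
# The numerator of the flux as one combination of the block tables

For integer data (`a`, `κ`, `e₀ = ep/eq`, coefficients, the frame ratio `S`, margins) the numerator
on a frame, times `588 eq`, is the form of a combination of the tables with polynomial weights.
Six nonnegative blocks give `CertIneq 5`.
-/

namespace Vale.Agent.P252.General.Cert5

open Finset Vale.Agent.P100T.PosCheck Vale.Agent.P252.PolyPSD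
open scoped Matrix

noncomputable section

/-- A term of the certificate, with an integer coefficient. -/
structure Trm : Type where
  b : Fin 12
  c : ℤ
  i : ℕ
  j : ℕ
  k : ℕ

/-- A coefficient of a known basic field. -/
structure Coef : Type where
  c : ℤ
  i : ℕ
  j : ℕ
  k : ℕ

/-- The term of a coefficient. -/
def Coef.toTrm (b : Fin 12) (T : Coef) : Trm := ⟨b, T.c, T.i, T.j, T.k⟩

/-- The term as a `Term`. -/
def Trm.toTerm (T : Trm) : Term := ⟨base12 T.b, (T.c : ℝ), T.i, T.j, T.k⟩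

/-- The degrees of the twelve basic fields. -/
def wtB : Fin 12 → ℕ := ![1, 1, 3, 3, 3, 3, 3, 5, 5, 5, 5, 5]

/-- The data of a certificate: `e₀ = ep/eq`, `k` is the power of `F` in the numerator, `S` the
ratio of the frames, `dN`, `cN` the margins times `588 eq`. -/
structure Cfg : Type where
  a : ℕ
  kap : ℕ
  ep : ℤ
  eq : ℕ
  k : ℕ
  S : ℕ
  dN : ℕ
  cN : ℕ
  coefs : Fin 12 → List Coef

/-- All terms, field by field. -/
def Cfg.terms (c : Cfg) : List Trm :=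
  (List.finRange 12).flatMap fun b => (c.coefs b).map (Coef.toTrm b)

/-- The parameters of the data. -/
def Cfg.P (c : Cfg) : Params where
  a := c.a
  gam := -1 / 2
  kap := (c.kap : ℝ)
  e0 := (c.ep : ℝ) / (c.eq : ℝ)
  deg := 2 * ((c.ep : ℝ) / (c.eq : ℝ) - 1 + (c.k : ℝ))
  terms := c.terms.map Trm.toTerm

/-- The common multiplier of the numerator. -/
def Cfg.scale (c : Cfg) : ℕ := 588 * c.eq

/-- The integer multiplier of an output. -/
def mult (b : Fin 12) (o : Fin 6) : ℕ := 588 / den b o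

theorem mult_den : ∀ b o, mult b o * den b o = 588 := by decide +kernel

/-- Substitute multiples of the variables. -/
def scaleEx (sx sy sz : ℤ) : Ex → Ex
  | .num k => .num k
  | .x => .mul (.num sx) .x
  | .y => .mul (.num sy) .y
  | .z => .mul (.num sz) .z
  | .add a b => .add (scaleEx sx sy sz a) (scaleEx sx sy sz b)
  | .sub a b => .sub (scaleEx sx sy sz a) (scaleEx sx sy sz b)
  | .mul a b => .mul (scaleEx sx sy sz a) (scaleEx sx sy sz b)
  | .pow a n => .pow (scaleEx sx sy sz a) n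

theorem eval_scaleEx (sx sy sz : ℤ) (e : Ex) (X Y Z : ℝ) :
    (scaleEx sx sy sz e).eval X Y Z = e.eval ((sx : ℝ) * X) ((sy : ℝ) * Y) ((sz : ℝ) * Z) := by
  induction e <;> simp [scaleEx, Ex.eval, *]

/-- `F` in the variables `A = d₀₀`, `C = d₁₁`. -/
def Cfg.fEx (c : Cfg) (A C : Ex) : Ex := .add A (.mul (.num c.kap) C)

/-- The six weights of a term without multiplier and coefficient. -/
def wPoly (c : Cfg) (A B C : Ex) (T : Trm) : Fin 6 → Ex :=
  let m : Ex := .mul (.pow A T.i) (.mul (.pow B T.j) (.pow C T.k))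
  let F : Ex := c.fEx A C
  let di : Ex := .mul (.num T.i) (.mul (.pow A (T.i - 1)) (.mul (.pow B T.j) (.pow C T.k)))
  let dj : Ex := .mul (.num T.j) (.mul (.pow B (T.j - 1)) (.mul (.pow A T.i) (.pow C T.k)))
  let dk : Ex := .mul (.num T.k) (.mul (.pow C (T.k - 1)) (.mul (.pow A T.i) (.pow B T.j)))
  ![.mul (.num c.eq) (.mul F m), .mul (.num (c.eq * c.a : ℕ)) (.mul F m),
    .mul (.num c.eq) (.mul F m),
    .add (.mul (.num c.eq) (.mul F di)) (.mul (.num c.ep) m),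
    .mul (.num c.eq) (.mul F dj),
    .add (.mul (.num c.eq) (.mul F dk)) (.mul (.num (c.ep * c.kap)) m)]

/-- The integer factor of the weight of an output. -/
def fac (T : Trm) (o : Fin 6) : ℤ :=
  if o = 2 then -(T.c * ((mult T.b o / 2 : ℕ) : ℤ)) else T.c * (mult T.b o : ℕ)

theorem mult_even : ∀ b, 2 * (mult b 2 / 2) = mult b 2 := by decide +kernel

/-- The weight of one output of a term. -/
def wEx (c : Cfg) (A B C : Ex) (T : Trm) (o : Fin 6) : Ex :=
  .mul (.num (fac T o)) (wPoly c A B C T o)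

/-- A product, dropped when the table entry is the zero constant. -/
def smul0 (w : Ex) : Ex → Ex
  | .num 0 => .num 0
  | e => .mul w e

theorem eval_smul0 (w e : Ex) (X Y Z : ℝ) :
    (smul0 w e).eval X Y Z = w.eval X Y Z * e.eval X Y Z := by
  unfold smul0
  split <;> simp [Ex.eval]

/-- The combination of one table; the weights of one field are added first. -/
def comb {m : ℕ} (c : Cfg) (A B C : Ex) (tab : Fin 12 → Fin 6 → Fin m → Fin m → Ex) (k l : Fin m) :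
    Ex :=
  sumEx ((List.finRange 12).map fun b => sumEx ((List.finRange 6).map fun o =>
    smul0 (sumEx ((c.coefs b).map fun T => wEx c A B C (T.toTrm b) o)) (tab b o k l)))

theorem qf_sum {α : Type} {m : ℕ} (X Y Z : ℝ) (F : α → Fin m → Fin m → Ex) (ξ : Fin m → ℝ) :
    ∀ l : List α, qf X Y Z (fun i j => sumEx (l.map fun a => F a i j)) ξ =
      (l.map fun a => qf X Y Z (F a) ξ).sum
  | [] => by simp [qf, sumEx, evalAt, Ex.eval]
  | a :: l => by
    rw [List.map_cons, List.sum_cons, ← qf_sum X Y Z F ξ l]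
    simp only [qf, evalAt, ← Finset.sum_add_distrib]
    refine Finset.sum_congr rfl fun i _ => Finset.sum_congr rfl fun j _ => ?_
    show ξ i * (Ex.add (F a i j) (sumEx (l.map fun a => F a i j))).eval X Y Z * ξ j = _
    simp only [Ex.eval]
    ring

theorem qf_smul0 {m : ℕ} (X Y Z : ℝ) (w : Ex) (A : Fin m → Fin m → Ex) (ξ : Fin m → ℝ) :
    qf X Y Z (fun i j => smul0 w (A i j)) ξ = w.eval X Y Z * qf X Y Z A ξ := by
  simp only [qf, evalAt, eval_smul0, Finset.mul_sum]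
  exact Finset.sum_congr rfl fun i _ => Finset.sum_congr rfl fun j _ => by ring

theorem qf_comb {m : ℕ} (c : Cfg) (X Y Z : ℝ) (A B C : Ex)
    (tab : Fin 12 → Fin 6 → Fin m → Fin m → Ex) (ξ : Fin m → ℝ) :
    qf X Y Z (comb c A B C tab) ξ = (c.terms.map fun T =>
      ∑ o, (wEx c A B C T o).eval X Y Z * qf X Y Z (tab T.b o) ξ).sum := by
  unfold comb
  rw [qf_sum X Y Z (fun b i j => sumEx ((List.finRange 6).map fun o =>
    smul0 (sumEx ((c.coefs b).map fun T => wEx c A B C (T.toTrm b) o)) (tab b o i j))) ξ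
      (List.finRange 12)]
  rw [Cfg.terms, List.map_flatMap, List.flatMap_def, List.sum_flatten, List.map_map]
  refine congrArg List.sum (List.map_congr_left fun b _ => ?_)
  rw [qf_sum X Y Z (fun o i j => smul0 (sumEx ((c.coefs b).map fun T => wEx c A B C (T.toTrm b) o))
    (tab b o i j)) ξ]
  simp only [qf_smul0, eval_sumEx, List.map_map, Function.comp_apply, Coef.toTrm]
  induction c.coefs b with
  | nil => simp
  | cons T l ih =>
    simp only [List.map_cons, List.sum_cons, ← ih, ← Fin.sum_univ_def, Function.comp_apply]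
    rw [← Finset.sum_add_distrib]
    exact Finset.sum_congr rfl fun o _ => by simp only [Coef.toTrm]; ring

/-- The numerator is a sum over the terms. -/
theorem num_eq_sum (J : Jet 5) (P : Params) :
    J.num P = (P.terms.map fun T => T.c * (J.bigF P *
        (J.mono T * (J.baseDiv T.base + J.dW P ⬝ᵥ J.baseY T.base) + J.dmono T ⬝ᵥ J.baseY T.base) +
      P.e0 * J.mono T * (J.dF P ⬝ᵥ J.baseY T.base))).sum := by
  simp only [Jet.num, Jet.polyDiv, Jet.polyY]
  induction P.terms with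
  | nil => simp
  | cons T l ih =>
    simp only [List.map_cons, List.sum_cons, ← ih, dotProduct_add, dotProduct_smul, smul_eq_mul]
    ring

/-- The weighted outputs of a term reproduce its scaled contribution to the numerator. -/
theorem scale_num (c : Cfg) (hq : 0 < c.eq) (J : Jet 5) (X Y Z : ℝ) (A B C : Ex)
    (hA : A.eval X Y Z = J.d 0 0) (hB : B.eval X Y Z = J.d 0 1) (hC : C.eval X Y Z = J.d 1 1) :
    (c.scale : ℝ) * J.num c.P = (c.terms.map fun T =>
      ∑ o, (wEx c A B C T o).eval X Y Z * ((den T.b o : ℝ) * outs J T.b o)).sum := by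
  rw [num_eq_sum, show c.P.terms = c.terms.map Trm.toTerm from rfl, List.map_map,
    ← List.sum_map_mul_left]
  refine congrArg List.sum (List.map_congr_left fun T _ => ?_)
  have hd : ∀ o, (mult T.b o : ℝ) * (den T.b o : ℝ) = 588 := fun o => by
    exact_mod_cast mult_den T.b o
  have hfac : ∀ o, o ≠ 2 → (fac T o : ℝ) * (den T.b o : ℝ) = (T.c : ℝ) * 588 := fun o ho => by
    rw [fac, if_neg ho, ← hd o]; push_cast; ring
  have h2 : (fac T 2 : ℝ) * (den T.b 2 : ℝ) = -((T.c : ℝ) * 294) := by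
    have he : (2 : ℝ) * ((mult T.b 2 / 2 : ℕ) : ℝ) = (mult T.b 2 : ℝ) := by
      exact_mod_cast mult_even T.b
    rw [fac, if_pos rfl, Int.cast_neg, Int.cast_mul, Int.cast_natCast]
    linear_combination (-(T.c : ℝ) / 2) * hd 2 - ((T.c : ℝ) * (den T.b 2 : ℝ) / 2) * he
  have f0 := hfac 0 (by decide)
  have f1 := hfac 1 (by decide)
  have f3 := hfac 3 (by decide)
  have f4 := hfac 4 (by decide)
  have f5 := hfac 5 (by decide)
  have he : (c.eq : ℝ) ≠ 0 := Nat.cast_ne_zero.2 hq.ne'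
  simp only [Function.comp_apply]
  simp only [Trm.toTerm, Jet.mono, Jet.dmono, Jet.bigF, Jet.dF, Jet.dW, Cfg.P, Cfg.scale, outs,
    add_dotProduct, smul_dotProduct, smul_eq_mul, Fin.sum_univ_six, wEx, wPoly, Cfg.fEx, Ex.eval,
    Matrix.cons_val_zero, Matrix.cons_val_one, Matrix.cons_val, hA, hB, hC, Int.cast_mul,
    Int.cast_natCast, Nat.cast_mul]
  push_cast
  set G := J.d 0 0 + (c.kap : ℝ) * J.d 1 1
  set m := J.d 0 0 ^ T.i * J.d 0 1 ^ T.j * J.d 1 1 ^ T.k
  set D := J.baseDiv (base12 T.b)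
  set V := J.v ⬝ᵥ J.baseY (base12 T.b)
  set W := J.t ⬝ᵥ J.baseY (base12 T.b)
  set G0 := J.dd 0 0 ⬝ᵥ J.baseY (base12 T.b)
  set G1 := J.dd 0 1 ⬝ᵥ J.baseY (base12 T.b)
  set G2 := J.dd 1 1 ⬝ᵥ J.baseY (base12 T.b)
  field_simp
  linear_combination
    (-2 * ((c.eq : ℝ) * G * m * D)) * f0 + (-2 * ((c.eq : ℝ) * (c.a : ℝ) * G * m * V)) * f1 +
    (-2 * ((c.eq : ℝ) * G * m * W)) * h2 +
    (-2 * (((c.eq : ℝ) * G * ((T.i : ℝ) * J.d 0 0 ^ (T.i - 1) * J.d 0 1 ^ T.j * J.d 1 1 ^ T.k) +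
      (c.ep : ℝ) * m) * G0)) * f3 +
    (-2 * ((c.eq : ℝ) * G * ((T.j : ℝ) * J.d 0 1 ^ (T.j - 1) * J.d 0 0 ^ T.i * J.d 1 1 ^ T.k) * G1)) * f4 +
    (-2 * (((c.eq : ℝ) * G * ((T.k : ℝ) * J.d 1 1 ^ (T.k - 1) * J.d 0 0 ^ T.i * J.d 0 1 ^ T.j) +
      (c.ep : ℝ) * (c.kap : ℝ) * m) * G2)) * f5

/-- The margins: a multiple of `F^k` at the constant and of `F^(k-2)` at `e`. -/
def margin (c : Cfg) (A C : Ex) (k l : Fin 9) : Ex :=
  if k = 7 ∧ l = 7 then .mul (.num (-(c.dN : ℤ))) (.pow (c.fEx A C) c.k)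
  else if k = 8 ∧ l = 8 then .mul (.num c.cN) (.pow (c.fEx A C) (c.k - 2))
  else .num 0

theorem qf_margin (c : Cfg) (X Y Z : ℝ) (A C : Ex) (ξ : Fin 9 → ℝ) (h : ξ 7 = 1) :
    qf X Y Z (margin c A C) ξ = -(c.dN : ℝ) * (c.fEx A C).eval X Y Z ^ c.k +
      (c.cN : ℝ) * (c.fEx A C).eval X Y Z ^ (c.k - 2) * ξ 8 ^ 2 := by
  simp [qf, margin, evalAt, Ex.eval, Fin.sum_univ_succ, show (Fin.succ 0 : Fin 2) = 1 from rfl]
  rw [h]
  ring

/-- The scalar block of the certificate. -/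
def full0 (c : Cfg) (A B C : Ex) (tab : Fin 12 → Fin 6 → Fin 9 → Fin 9 → Ex) (k l : Fin 9) : Ex :=
  .add (comb c A B C tab k l) (margin c A C k l)

theorem qf_full0 (c : Cfg) (X Y Z : ℝ) (A B C : Ex) (tab : Fin 12 → Fin 6 → Fin 9 → Fin 9 → Ex)
    (ξ : Fin 9 → ℝ) :
    qf X Y Z (full0 c A B C tab) ξ =
      qf X Y Z (comb c A B C tab) ξ + qf X Y Z (margin c A C) ξ := by
  simp only [qf, full0, evalAt, Ex.eval, ← Finset.sum_add_distrib]
  exact Finset.sum_congr rfl fun i _ => Finset.sum_congr rfl fun j _ => by ring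

theorem qf_scaleEx {m : ℕ} (sx sy sz : ℤ) (X Y Z : ℝ) (A : Fin m → Fin m → Ex) (ξ : Fin m → ℝ) :
    qf X Y Z (fun i j => scaleEx sx sy sz (A i j)) ξ =
      qf ((sx : ℝ) * X) ((sy : ℝ) * Y) ((sz : ℝ) * Z) A ξ := by
  simp only [qf, evalAt, eval_scaleEx]

/-- `d₀₀`, `d₀₁`, `d₁₁` in the first frame. -/
def varsI : Fin 3 → Ex := ![m3 1 0 0 2, m3 1 1 0 1, .add (m3 1 2 0 0) (m3 1 0 2 0)]

/-- `d₀₀`, `d₀₁`, `d₁₁` in the second frame. -/
def varsII : Fin 3 → Ex := ![.add (m3 1 2 0 0) (m3 1 0 2 0), m3 1 1 0 1, m3 1 0 0 2]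

/-- The degrees of the coordinates of the three blocks. -/
def wt0 : Fin 9 → ℕ := ![2, 2, 2, 1, 1, 1, 2, 0, 2]

/-- The degrees of the coordinates of the blocks of five. -/
def wt1 : Fin 5 → ℕ := ![2, 2, 1, 1, 2]

/-- The degrees of the coordinates of the blocks of three. -/
def wt2 : Fin 3 → ℕ := ![2, 1, 2]

/-- Structured block 0 in frame I. -/
def SI0 (c : Cfg) : Fin 9 → Fin 9 → Ex := fun i j =>
  scaleEx 1 1 c.S (full0 c (varsI 0) (varsI 1) (varsI 2) tabI0 i j)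

/-- Structured block 1 in frame I. -/
def SI1 (c : Cfg) : Fin 5 → Fin 5 → Ex := fun i j =>
  scaleEx 1 1 c.S (comb c (varsI 0) (varsI 1) (varsI 2) tabI1 i j)

/-- Structured block 2 in frame I. -/
def SI2 (c : Cfg) : Fin 3 → Fin 3 → Ex := fun i j =>
  scaleEx 1 1 c.S (comb c (varsI 0) (varsI 1) (varsI 2) tabI2 i j)

/-- Structured block 0 in frame II. -/
def SII0 (c : Cfg) : Fin 9 → Fin 9 → Ex := fun i j =>
  scaleEx c.S c.S 1 (full0 c (varsII 0) (varsII 1) (varsII 2) tabII0 i j)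

/-- Structured block 1 in frame II. -/
def SII1 (c : Cfg) : Fin 5 → Fin 5 → Ex := fun i j =>
  scaleEx c.S c.S 1 (comb c (varsII 0) (varsII 1) (varsII 2) tabII1 i j)

/-- Structured block 2 in frame II. -/
def SII2 (c : Cfg) : Fin 3 → Fin 3 → Ex := fun i j =>
  scaleEx c.S c.S 1 (comb c (varsII 0) (varsII 1) (varsII 2) tabII2 i j)

theorem numI (c : Cfg) (hq : 0 < c.eq) (X Y Z : ℝ) (p : Par)
    (S₂ S₃ S₄ : Matrix (Fin 5) (Fin 5) ℝ) :
    (c.scale : ℝ) * (jetI X Y Z p S₂ S₃ S₄).num c.P =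
      qf X Y Z (comb c (varsI 0) (varsI 1) (varsI 2) tabI0) (p.x0 Y) +
        (∑ i, qf X Y Z (comb c (varsI 0) (varsI 1) (varsI 2) tabI1) (p.x1 Y i)) +
        (∑ i, ∑ j, qf X Y Z (comb c (varsI 0) (varsI 1) (varsI 2) tabI2)
          (p.x2 Y (Z ^ 2) Z 0 i j)) / 2 := by
  rw [scale_num c hq (jetI X Y Z p S₂ S₃ S₄) X Y Z (varsI 0) (varsI 1) (varsI 2)]
  · simp only [qf_comb]
    induction c.terms with
    | nil => simp
    | cons T l ih =>
      simp only [List.map_cons, List.sum_cons, Finset.sum_add_distrib, ih]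
      have e : ∀ o, (den T.b o : ℝ) * outs (jetI X Y Z p S₂ S₃ S₄) T.b o =
          blocks X Y Z p (tabI0 T.b o) (tabI1 T.b o) (tabI2 T.b o) (Z ^ 2) Z 0 := fun o => by
        rw [outsI, mul_div_cancel₀ _ (Nat.cast_ne_zero.2 (den_pos T.b o).ne')]
      simp only [e, blocks, mul_add, Finset.sum_add_distrib, Finset.mul_sum, mul_div_assoc',
        ← Finset.sum_div, add_div]
      rw [Finset.sum_comm (f := fun o i => _ * qf X Y Z (tabI1 T.b o) (p.x1 Y i))]
      conv_lhs =>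
        enter [1, 2]
        rw [Finset.sum_comm]
        enter [1, 2, i]
        rw [Finset.sum_comm]
      ring
  all_goals
    simp [varsI, m3, Ex.eval, Jet.d, Jet.Z, jetI, dotProduct, Fin.sum_univ_five]
    ring

theorem numII (c : Cfg) (hq : 0 < c.eq) (X Y Z : ℝ) (p : Par)
    (S₂ S₃ S₄ : Matrix (Fin 5) (Fin 5) ℝ) :
    (c.scale : ℝ) * (jetII X Y Z p S₂ S₃ S₄).num c.P =
      qf X Y Z (comb c (varsII 0) (varsII 1) (varsII 2) tabII0) (p.x0 Y) +
        (∑ i, qf X Y Z (comb c (varsII 0) (varsII 1) (varsII 2) tabII1) (p.x1 Y i)) +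
        (∑ i, ∑ j, qf X Y Z (comb c (varsII 0) (varsII 1) (varsII 2) tabII2)
          (p.x2 Y (X ^ 2 + Y ^ 2) X Y i j)) / 2 := by
  rw [scale_num c hq (jetII X Y Z p S₂ S₃ S₄) X Y Z (varsII 0) (varsII 1) (varsII 2)]
  · simp only [qf_comb]
    induction c.terms with
    | nil => simp
    | cons T l ih =>
      simp only [List.map_cons, List.sum_cons, Finset.sum_add_distrib, ih]
      have e : ∀ o, (den T.b o : ℝ) * outs (jetII X Y Z p S₂ S₃ S₄) T.b o =
          blocks X Y Z p (tabII0 T.b o) (tabII1 T.b o) (tabII2 T.b o) (X ^ 2 + Y ^ 2) X Y :=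
        fun o => by rw [outsII, mul_div_cancel₀ _ (Nat.cast_ne_zero.2 (den_pos T.b o).ne')]
      simp only [e, blocks, mul_add, Finset.sum_add_distrib, Finset.mul_sum, mul_div_assoc',
        ← Finset.sum_div, add_div]
      rw [Finset.sum_comm (f := fun o i => _ * qf X Y Z (tabII1 T.b o) (p.x1 Y i))]
      conv_lhs =>
        enter [1, 2]
        rw [Finset.sum_comm]
        enter [1, 2, i]
        rw [Finset.sum_comm]
      ring
  all_goals
    simp [varsII, m3, Ex.eval, Jet.d, Jet.Z, jetII, dotProduct, Fin.sum_univ_five]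
    try ring

theorem num_eq_zero_of_zero (J : Jet 5) (P : Params) (h0 : J.Z 0 = 0) (h1 : J.Z 1 = 0) :
    J.num P = 0 ∧ J.bigF P = 0 := by
  have hF : J.bigF P = 0 := by simp [Jet.bigF, Jet.d, h0, h1]
  have hdF : J.dF P = 0 := by simp [Jet.dF, Jet.dd, h0, h1]
  exact ⟨by simp [Jet.num, hF, hdF], hF⟩

theorem Par.x0_seven (p : Par) (Y : ℝ) : p.x0 Y 7 = 1 := rfl

theorem Par.x0_eight (p : Par) (Y : ℝ) : p.x0 Y 8 = p.e := rfl

/-- Six nonnegative blocks give the algebraic inequality in five variables. -/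
theorem certIneq_of_blocks (c : Cfg) (hk : 3 ≤ c.k) (hq : 0 < c.eq) (hep : c.ep ≠ 0)
    (hkap : 0 < c.kap) (hS : 0 < c.S) (hd : 0 < c.dN) (hdeg : 4 < c.P.deg)
    (ha : c.P.deg + 1 < (c.a : ℝ))
    (hhom : (c.terms.all fun T => decide (2 * (T.i + T.j + T.k) + wtB T.b + 3 = 2 * c.k)) = true)
    (h : ∀ {X Y Z : ℝ}, |X| ≤ Z → 0 ≤ Y → Y ≤ Z → 0 < Z →
      (∀ ξ, 0 ≤ qf X Y Z (SI0 c) ξ) ∧ (∀ ξ, 0 ≤ qf X Y Z (SI1 c) ξ) ∧
      (∀ ξ, 0 ≤ qf X Y Z (SI2 c) ξ) ∧ (∀ ξ, 0 ≤ qf X Y Z (SII0 c) ξ) ∧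
      (∀ ξ, 0 ≤ qf X Y Z (SII1 c) ξ) ∧ (∀ ξ, 0 ≤ qf X Y Z (SII2 c) ξ)) :
    CertIneq 5 c.P := by
  have hsc : (0 : ℝ) < c.scale := by
    rw [Cfg.scale]; exact_mod_cast Nat.mul_pos (by norm_num) hq
  have bound : ∀ {N F e : ℝ},
      0 ≤ (c.scale : ℝ) * N + (-(c.dN : ℝ) * F ^ c.k + (c.cN : ℝ) * F ^ (c.k - 2) * e ^ 2) →
      (c.dN : ℝ) / c.scale * F ^ c.k - (c.cN : ℝ) / c.scale * e ^ 2 * F ^ (c.k - 2) ≤ N := by
    intro N F e h
    rw [← mul_le_mul_iff_of_pos_left hsc]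
    field_simp
    linarith
  refine certIneq5_of_frames c.P (by exact Nat.cast_pos.2 hkap) hdeg ?_ ha ?_ (k := c.k) (by omega)
    ?_ (S := (c.S : ℝ)) (δ := (c.dN : ℝ) / c.scale) (C₀ := (c.cN : ℝ) / c.scale)
    (Nat.cast_pos.2 hS) (div_pos (Nat.cast_pos.2 hd) hsc) (by positivity) ?_ ?_
  · exact div_ne_zero (Int.cast_ne_zero.2 hep) (Nat.cast_ne_zero.2 hq.ne')
  · intro T hT
    simp only [Cfg.P, List.mem_map] at hT
    obtain ⟨t, ht, rfl⟩ := hT
    have hw : (base12 t.b).wt = wtB t.b := by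
      generalize t.b = b
      fin_cases b <;> rfl
    have := of_decide_eq_true (List.all_eq_true.1 hhom t ht)
    have e : ((2 * (t.i + t.j + t.k) + wtB t.b + 3 : ℕ) : ℝ) = ((2 * c.k : ℕ) : ℝ) := by
      rw [this]
    simp only [Trm.toTerm, Cfg.P, hw]
    push_cast at e ⊢
    linarith
  · simp only [Cfg.P]; ring
  · intro X Y Z p S₂ S₃ S₄ hX hY hYZ
    rcases (le_trans hY hYZ).lt_or_eq with hZ | hZ
    · obtain ⟨h0, h1, h2, -, -, -⟩ := h hX hY hYZ hZ
      refine bound ?_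
      rw [numI c hq]
      have g0 := h0 (p.x0 Y)
      unfold SI0 at g0
      rw [qf_scaleEx, qf_full0, qf_margin c _ _ _ _ _ _ (p.x0_seven Y), Par.x0_eight] at g0
      have g1 := fun i => h1 (p.x1 Y i)
      have g2 := fun i j => h2 (p.x2 Y (((c.S : ℝ) * Z) ^ 2) ((c.S : ℝ) * Z) 0 i j)
      unfold SI1 at g1
      unfold SI2 at g2
      simp only [qf_scaleEx] at g1 g2
      simp only [Int.cast_natCast, Int.cast_one, one_mul] at g0 g1 g2
      have hF : (c.fEx (varsI 0) (varsI 2)).eval X Y ((c.S : ℝ) * Z) =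
          (jetI X Y ((c.S : ℝ) * Z) p S₂ S₃ S₄).bigF c.P := by
        simp [Cfg.fEx, varsI, m3, Ex.eval, Jet.bigF, Jet.d, Jet.Z, jetI, Cfg.P, dotProduct,
          Fin.sum_univ_five]
        ring
      rw [hF] at g0
      rw [show (jetI X Y ((c.S : ℝ) * Z) p S₂ S₃ S₄).e = p.e from rfl]
      linarith [Finset.sum_nonneg fun i (_ : i ∈ univ) => g1 i,
        Finset.sum_nonneg fun i (_ : i ∈ univ) => Finset.sum_nonneg fun j (_ : j ∈ univ) => g2 i j]
    · subst hZ
      obtain rfl : X = 0 := abs_nonpos_iff.1 hX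
      obtain rfl : Y = 0 := le_antisymm hYZ hY
      obtain ⟨hN, hF⟩ := num_eq_zero_of_zero (jetI 0 0 ((c.S : ℝ) * 0) p S₂ S₃ S₄) c.P
        (by ext i; fin_cases i <;> simp [Jet.Z, jetI]) (by ext i; fin_cases i <;> simp [Jet.Z, jetI])
      rw [hN, hF, zero_pow (by omega), zero_pow (by omega)]
      simp
  · intro X Y Z p S₂ S₃ S₄ hX hY hYZ
    rcases (le_trans hY hYZ).lt_or_eq with hZ | hZ
    · obtain ⟨-, -, -, h0, h1, h2⟩ := h hX hY hYZ hZ
      refine bound ?_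
      rw [numII c hq]
      have g0 := h0 (p.x0 ((c.S : ℝ) * Y))
      unfold SII0 at g0
      rw [qf_scaleEx, qf_full0, qf_margin c _ _ _ _ _ _ (p.x0_seven _), Par.x0_eight] at g0
      have g1 := fun i => h1 (p.x1 ((c.S : ℝ) * Y) i)
      have g2 := fun i j => h2 (p.x2 ((c.S : ℝ) * Y) (((c.S : ℝ) * X) ^ 2 + ((c.S : ℝ) * Y) ^ 2)
        ((c.S : ℝ) * X) ((c.S : ℝ) * Y) i j)
      unfold SII1 at g1
      unfold SII2 at g2
      simp only [qf_scaleEx] at g1 g2
      simp only [Int.cast_natCast, Int.cast_one, one_mul] at g0 g1 g2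
      have hF : (c.fEx (varsII 0) (varsII 2)).eval ((c.S : ℝ) * X) ((c.S : ℝ) * Y) Z =
          (jetII ((c.S : ℝ) * X) ((c.S : ℝ) * Y) Z p S₂ S₃ S₄).bigF c.P := by
        simp [Cfg.fEx, varsII, m3, Ex.eval, Jet.bigF, Jet.d, Jet.Z, jetII, Cfg.P, dotProduct,
          Fin.sum_univ_five]
        ring
      rw [hF] at g0
      rw [show (jetII ((c.S : ℝ) * X) ((c.S : ℝ) * Y) Z p S₂ S₃ S₄).e = p.e from rfl]
      linarith [Finset.sum_nonneg fun i (_ : i ∈ univ) => g1 i,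
        Finset.sum_nonneg fun i (_ : i ∈ univ) => Finset.sum_nonneg fun j (_ : j ∈ univ) => g2 i j]
    · subst hZ
      obtain rfl : X = 0 := abs_nonpos_iff.1 hX
      obtain rfl : Y = 0 := le_antisymm hYZ hY
      obtain ⟨hN, hF⟩ := num_eq_zero_of_zero
        (jetII ((c.S : ℝ) * 0) ((c.S : ℝ) * 0) 0 p S₂ S₃ S₄) c.P
        (by ext i; fin_cases i <;> simp [Jet.Z, jetII]) (by ext i; fin_cases i <;> simp [Jet.Z, jetII])
      rw [hN, hF, zero_pow (by omega), zero_pow (by omega)]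
      simp

end

end Vale.Agent.P252.General.Cert5
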