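import Vale.Agent.P252.Cert.ZeroCheck
import Vale.Agent.P252.Rigidity.General.Cert5.Combine

/-!
# A structured entry against a stored one

A gap of homogeneous expressions is tested on the chart `z = 1`, where two variables remain; a
block then inherits nonnegativity from the stored one.
-/

namespace Vale.Agent.P252.General.Cert5

open Finset Vale.Agent.P100T.PosCheck Vale.Agent.P252.PolyPSD

noncomputable section

/-- The degree of a homogeneous expression: zero, a degree, or unknown. -/
inductive HD where
  | zero
  | deg (d : ℕ)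
  | bad

/-- The degree of a sum. -/
def HD.add : HD → HD → HD
  | .zero, b => b
  | a, .zero => a
  | .deg a, .deg b => if a = b then .deg a else .bad
  | _, _ => .bad

/-- The degree of a product. -/
def HD.mul : HD → HD → HD
  | .zero, _ => .zero
  | _, .zero => .zero
  | .deg a, .deg b => .deg (a + b)
  | _, _ => .bad

/-- The degree of a power. -/
def HD.pow : HD → ℕ → HD
  | _, 0 => .deg 0
  | .zero, _ => .zero
  | .deg a, n => .deg (a * n)
  | .bad, _ => .bad

/-- The degree of an expression. -/
def hdeg : Ex → HD
  | .num k => if k = 0 then .zero else .deg 0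
  | .x => .deg 1
  | .y => .deg 1
  | .z => .deg 1
  | .add a b => (hdeg a).add (hdeg b)
  | .sub a b => (hdeg a).add (hdeg b)
  | .mul a b => (hdeg a).mul (hdeg b)
  | .pow a n => (hdeg a).pow n

/-- What a degree says about an expression. -/
def Hom : HD → Ex → Prop
  | .zero, e => ∀ X Y Z : ℝ, e.eval X Y Z = 0
  | .deg d, e => ∀ r X Y Z : ℝ, e.eval (r * X) (r * Y) (r * Z) = r ^ d * e.eval X Y Z
  | .bad, _ => True

theorem hom_hdeg : ∀ e : Ex, Hom (hdeg e) e
  | .num k => by
    unfold hdeg
    split
    · subst k; simp [Hom, Ex.eval]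
    · simp [Hom, Ex.eval]
  | .x => by simp [hdeg, Hom, Ex.eval]
  | .y => by simp [hdeg, Hom, Ex.eval]
  | .z => by simp [hdeg, Hom, Ex.eval]
  | .add a b => by
    have ha := hom_hdeg a
    have hb := hom_hdeg b
    unfold hdeg
    revert ha hb
    cases hdeg a <;> cases hdeg b <;> simp only [HD.add] <;> try split
    all_goals simp_all [Hom, Ex.eval, mul_add]
  | .sub a b => by
    have ha := hom_hdeg a
    have hb := hom_hdeg b
    unfold hdeg
    revert ha hb
    cases hdeg a <;> cases hdeg b <;> simp only [HD.add] <;> try split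
    all_goals simp_all [Hom, Ex.eval, mul_sub]
  | .mul a b => by
    have ha := hom_hdeg a
    have hb := hom_hdeg b
    unfold hdeg
    revert ha hb
    cases hdeg a <;> cases hdeg b <;> simp only [HD.mul]
    all_goals intro ha hb
    all_goals simp only [Hom, Ex.eval] at *
    all_goals intros
    all_goals simp [ha, hb, pow_add, mul_mul_mul_comm]
  | .pow a n => by
    have ha := hom_hdeg a
    unfold hdeg
    revert ha
    rcases n with _ | n
    · intro _; simp [HD.pow, Hom, Ex.eval]
    · cases hdeg a <;> simp only [HD.pow]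
      all_goals intro ha
      all_goals simp only [Hom, Ex.eval] at *
      all_goals intros
      all_goals simp [ha, mul_pow, ← pow_mul]

/-- The stored entry `m` equals `2^p s z^w` divided by `g`. -/
def gap (s m : Ex) (p g w : ℕ) : Ex :=
  .sub (.mul (.num (2 ^ p : ℕ)) (.mul s (.pow .z w))) (.mul (.num g) m)

/-- The gap is homogeneous and vanishes on the chart `z = 1`. -/
def gapCheck (s m : Ex) (p g w : ℕ) : Bool :=
  (match hdeg (gap s m p g w) with | .bad => false | _ => true) &&
    zeroCheck (subst .x .y (.num 1) (gap s m p g w))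

theorem gap_eq_zero {s m : Ex} {p g w : ℕ} (h : gapCheck s m p g w = true) {X Y Z : ℝ}
    (hZ : 0 < Z) : (2 : ℝ) ^ p * (s.eval X Y Z * Z ^ w) = (g : ℝ) * m.eval X Y Z := by
  simp only [gapCheck, Bool.and_eq_true] at h
  have h1 : ∀ a b : ℝ, (gap s m p g w).eval a b 1 = 0 := fun a b => by
    have := eval_eq_zero h.2 (R := ℝ) a b 0
    simpa [eval_subst, Ex.eval] using this
  have key : (gap s m p g w).eval X Y Z = 0 := by
    have hh := hom_hdeg (gap s m p g w)
    revert hh
    cases hd : hdeg (gap s m p g w) with
    | zero => exact fun hh => hh X Y Z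
    | deg d =>
      intro hh
      have := hh Z (X / Z) (Y / Z) 1
      rwa [h1, mul_zero, mul_div_cancel₀ _ hZ.ne', mul_div_cancel₀ _ hZ.ne', mul_one] at this
    | bad => simp [hd] at h
  simpa [gap, Ex.eval, sub_eq_zero] using key

/-- Equality of expressions, for the kernel. -/
def exBeq : Ex → Ex → Bool
  | .num a, .num b => decide (a = b)
  | .x, .x => true
  | .y, .y => true
  | .z, .z => true
  | .add a b, .add c d => exBeq a c && exBeq b d
  | .sub a b, .sub c d => exBeq a c && exBeq b d
  | .mul a b, .mul c d => exBeq a c && exBeq b d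
  | .pow a n, .pow b m => exBeq a b && decide (n = m)
  | _, _ => false

theorem eq_of_exBeq : ∀ {a b : Ex}, exBeq a b = true → a = b := by
  intro a b
  induction a generalizing b <;> cases b <;>
    simp +contextual [exBeq, Bool.and_eq_true] <;>
    intros <;> (try constructor) <;> solve_by_elim

/-- Every table is symmetric. -/
def symTab {m : ℕ} (tab : Fin 12 → Fin 6 → Fin m → Fin m → Ex) : Bool :=
  (List.finRange 12).all fun b => (List.finRange 6).all fun o =>
    (List.finRange m).all fun k => (List.finRange m).all fun l =>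
      exBeq (tab b o k l) (tab b o l k)

theorem comb_symm {m : ℕ} {c : Cfg} {A B C : Ex} {tab : Fin 12 → Fin 6 → Fin m → Fin m → Ex}
    (h : symTab tab = true) (k l : Fin m) : comb c A B C tab k l = comb c A B C tab l k := by
  have he : ∀ b o, tab b o k l = tab b o l k := fun b o => eq_of_exBeq <| by
    simp only [symTab, List.all_eq_true] at h
    exact h b (List.mem_finRange b) o (List.mem_finRange o) k (List.mem_finRange k) l
      (List.mem_finRange l)
  simp only [comb, he]

theorem full0_symm {c : Cfg} {A B C : Ex} {tab : Fin 12 → Fin 6 → Fin 9 → Fin 9 → Ex}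
    (h : symTab tab = true) (k l : Fin 9) : full0 c A B C tab k l = full0 c A B C tab l k := by
  have hm : margin c A C k l = margin c A C l k := by
    simp only [margin, and_comm (a := k = 7), and_comm (a := k = 8)]
  simp only [full0, comb_symm h k l, hm]

/-- Row `k` of the upper triangle passes the gap tests. -/
def rowCheck {m : ℕ} (S M : Fin m → Fin m → Ex) (e w : Fin m → ℕ) (g : ℕ) (k : Fin m) : Bool :=
  (List.finRange m).all fun l =>
    decide (l.val < k.val) || gapCheck (S k l) (M k l) (e k + e l) g (w k + w l)

/-- A structured form is nonnegative in the region when the stored one is. -/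
theorem qf_nonneg {m : ℕ} {S M : Fin m → Fin m → Ex} (e w : Fin m → ℕ) {g : ℕ}
    (hS : ∀ k l, S k l = S l k) (hM : ∀ k l, M k l = M l k)
    (he : ∀ k, rowCheck S M e w g k = true)
    {X Y Z : ℝ} (hZ : 0 < Z) (hpos : ∀ ξ, 0 ≤ qf X Y Z M ξ) (ξ : Fin m → ℝ) :
    0 ≤ qf X Y Z S ξ := by
  have h := hpos fun k => ξ k / ((2 : ℝ) ^ e k * Z ^ w k)
  have hz : ∀ k l, (2 : ℝ) ^ (e k + e l) * ((S k l).eval X Y Z * Z ^ (w k + w l)) =
      (g : ℝ) * (M k l).eval X Y Z := by
    have up : ∀ k l : Fin m, k.val ≤ l.val →
        (2 : ℝ) ^ (e k + e l) * ((S k l).eval X Y Z * Z ^ (w k + w l)) =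
          (g : ℝ) * (M k l).eval X Y Z := fun k l hkl => by
      have := List.all_eq_true.1 (he k) l (List.mem_finRange l)
      rw [Bool.or_eq_true, decide_eq_true_eq] at this
      exact gap_eq_zero (this.resolve_left (by omega)) hZ
    intro k l
    rcases le_total k.val l.val with hkl | hkl
    · exact up k l hkl
    · rw [hS k l, hM k l, add_comm (e k), add_comm (w k)]
      exact up l k hkl
  have key : qf X Y Z S ξ = (g : ℝ) * qf X Y Z M (fun k => ξ k / ((2 : ℝ) ^ e k * Z ^ w k)) := by
    simp only [qf, Finset.mul_sum]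
    refine Finset.sum_congr rfl fun k _ => Finset.sum_congr rfl fun l _ => ?_
    have hz := hz k l
    simp only [pow_add] at hz
    simp only [evalAt]
    field_simp
    linear_combination (ξ k * ξ l) * hz
  rw [key]
  exact mul_nonneg (Nat.cast_nonneg g) h

end

end Vale.Agent.P252.General.Cert5
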