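import Vale.Agent.P252.Rigidity.General.Cert5.Region
import Vale.Agent.P252.Rigidity.General.Cert5.Entries.I0
import Vale.Agent.P252.Rigidity.General.Cert5.Entries.I1
import Vale.Agent.P252.Rigidity.General.Cert5.Entries.I2
import Vale.Agent.P252.Rigidity.General.Cert5.Entries.II0
import Vale.Agent.P252.Rigidity.General.Cert5.Entries.II1
import Vale.Agent.P252.Rigidity.General.Cert5.Entries.II2

/-!
# From the six stored blocks to the algebraic inequality in five variables
-/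

namespace Vale.Agent.P252.General.Cert5

open Vale.Agent.P252.PolyPSD

noncomputable section

theorem deg_c5 : c5.P.deg = 251 / 50 := by
  norm_num [Cfg.P, c5]

theorem certIneq5_of_posOn
    (hI0 : ∀ i, PosOn (PDCoef.matEx 9 offI0 16 MI0) (roots i))
    (hI1 : ∀ i, PosOn (PDCoef.matEx 5 offI1 14 MI1) (roots i))
    (hI2 : ∀ i, PosOn (PDCoef.matEx 3 offI2 14 MI2) (roots i))
    (hII0 : ∀ i, PosOn (PDCoef.matEx 9 offII0 16 MII0) (roots i))
    (hII1 : ∀ i, PosOn (PDCoef.matEx 5 offII1 14 MII1) (roots i))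
    (hII2 : ∀ i, PosOn (PDCoef.matEx 3 offII2 14 MII2) (roots i)) :
    CertIneq 5 c5.P := by
  refine certIneq_of_blocks c5 (by decide) (by decide) (by decide) (by decide) (by decide)
    (by decide) (by rw [deg_c5]; norm_num) (by rw [deg_c5]; norm_num [c5]) (by decide +kernel) ?_
  intro X Y Z hX hY hYZ hZ
  exact ⟨nonnegI0 hZ fun ξ => qf_nonneg_of_roots hI0 hX hY hYZ ξ,
    nonnegI1 hZ fun ξ => qf_nonneg_of_roots hI1 hX hY hYZ ξ,
    nonnegI2 hZ fun ξ => qf_nonneg_of_roots hI2 hX hY hYZ ξ,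
    nonnegII0 hZ fun ξ => qf_nonneg_of_roots hII0 hX hY hYZ ξ,
    nonnegII1 hZ fun ξ => qf_nonneg_of_roots hII1 hX hY hYZ ξ,
    nonnegII2 hZ fun ξ => qf_nonneg_of_roots hII2 hX hY hYZ ξ⟩

end

end Vale.Agent.P252.General.Cert5
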