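import Vale.Agent.P252.Rigidity.General.Cert5.Bases.I0
import Vale.Agent.P252.Rigidity.General.Cert5.Bases.I1
import Vale.Agent.P252.Rigidity.General.Cert5.Bases.I2
import Vale.Agent.P252.Rigidity.General.Cert5.Bases.I3
import Vale.Agent.P252.Rigidity.General.Cert5.Bases.I4
import Vale.Agent.P252.Rigidity.General.Cert5.Bases.I5
import Vale.Agent.P252.Rigidity.General.Cert5.Bases.I6
import Vale.Agent.P252.Rigidity.General.Cert5.Bases.I7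
import Vale.Agent.P252.Rigidity.General.Cert5.Bases.I8
import Vale.Agent.P252.Rigidity.General.Cert5.Bases.I9
import Vale.Agent.P252.Rigidity.General.Cert5.Bases.I10
import Vale.Agent.P252.Rigidity.General.Cert5.Bases.I11
import Vale.Agent.P252.Rigidity.General.Cert5.Bases.II0
import Vale.Agent.P252.Rigidity.General.Cert5.Bases.II1
import Vale.Agent.P252.Rigidity.General.Cert5.Bases.II2
import Vale.Agent.P252.Rigidity.General.Cert5.Bases.II3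
import Vale.Agent.P252.Rigidity.General.Cert5.Bases.II4
import Vale.Agent.P252.Rigidity.General.Cert5.Bases.II5
import Vale.Agent.P252.Rigidity.General.Cert5.Bases.II6
import Vale.Agent.P252.Rigidity.General.Cert5.Bases.II7
import Vale.Agent.P252.Rigidity.General.Cert5.Bases.II8
import Vale.Agent.P252.Rigidity.General.Cert5.Bases.II9
import Vale.Agent.P252.Rigidity.General.Cert5.Bases.II10
import Vale.Agent.P252.Rigidity.General.Cert5.Bases.II11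

/-!
# The twelve basic fields in five variables: outputs and tables of block forms

No scale, weight exponent or coefficient enters: `v` is `(X,Y,0,0,0)` or `(Z,0,0,0,0)`.
-/

namespace Vale.Agent.P252.General.Cert5

open Vale.Agent.P100T.PosCheck
open scoped Matrix

noncomputable section

/-- The twelve basic fields. -/
def base12 : Fin 12 → Base :=
  ![.k 0, .k 1, .h 0, .h 1, .t 0 0, .t 0 1, .t 1 1, .ah 0, .ah 1, .atb 0 0, .atb 0 1, .atb 1 1]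

/-- The six outputs of a basic field: its divergence and its products with `v`, `τ` and the three
gradients of `⟨Z_a, Z_b⟩`. -/
def outs (J : Jet 5) (b : Fin 12) : Fin 6 → ℝ :=
  ![J.baseDiv (base12 b), J.v ⬝ᵥ J.baseY (base12 b), J.t ⬝ᵥ J.baseY (base12 b),
    J.dd 0 0 ⬝ᵥ J.baseY (base12 b), J.dd 0 1 ⬝ᵥ J.baseY (base12 b),
    J.dd 1 1 ⬝ᵥ J.baseY (base12 b)]

/-- The denominators of the tables. -/
def den : Fin 12 → Fin 6 → ℕ :=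
  ![![7, 1, 1, 2, 2, 2],
    ![2, 1, 1, 2, 2, 2],
    ![147, 2, 2, 2, 2, 2],
    ![14, 2, 2, 2, 2, 2],
    ![42, 2, 2, 1, 2, 2],
    ![42, 2, 2, 2, 2, 2],
    ![6, 2, 2, 2, 2, 1],
    ![14, 2, 2, 2, 2, 2],
    ![14, 2, 2, 2, 2, 2],
    ![14, 2, 2, 1, 2, 2],
    ![14, 2, 2, 2, 2, 2],
    ![14, 2, 2, 2, 2, 1]]

/-- Block 0 of every output in frame I. -/
def tabI0 : Fin 12 → Fin 6 → Fin 9 → Fin 9 → Ex :=
  ![![b0DI_0, b0VI_0, b0TI_0, b0G00I_0, b0G01I_0, b0G11I_0],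
    ![b1DI_0, b1VI_0, b1TI_0, b1G00I_0, b1G01I_0, b1G11I_0],
    ![b2DI_0, b2VI_0, b2TI_0, b2G00I_0, b2G01I_0, b2G11I_0],
    ![b3DI_0, b3VI_0, b3TI_0, b3G00I_0, b3G01I_0, b3G11I_0],
    ![b4DI_0, b4VI_0, b4TI_0, b4G00I_0, b4G01I_0, b4G11I_0],
    ![b5DI_0, b5VI_0, b5TI_0, b5G00I_0, b5G01I_0, b5G11I_0],
    ![b6DI_0, b6VI_0, b6TI_0, b6G00I_0, b6G01I_0, b6G11I_0],
    ![b7DI_0, b7VI_0, b7TI_0, b7G00I_0, b7G01I_0, b7G11I_0],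
    ![b8DI_0, b8VI_0, b8TI_0, b8G00I_0, b8G01I_0, b8G11I_0],
    ![b9DI_0, b9VI_0, b9TI_0, b9G00I_0, b9G01I_0, b9G11I_0],
    ![b10DI_0, b10VI_0, b10TI_0, b10G00I_0, b10G01I_0, b10G11I_0],
    ![b11DI_0, b11VI_0, b11TI_0, b11G00I_0, b11G01I_0, b11G11I_0]]

/-- Block 1 of every output in frame I. -/
def tabI1 : Fin 12 → Fin 6 → Fin 5 → Fin 5 → Ex :=
  ![![b0DI_1, b0VI_1, b0TI_1, b0G00I_1, b0G01I_1, b0G11I_1],
    ![b1DI_1, b1VI_1, b1TI_1, b1G00I_1, b1G01I_1, b1G11I_1],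
    ![b2DI_1, b2VI_1, b2TI_1, b2G00I_1, b2G01I_1, b2G11I_1],
    ![b3DI_1, b3VI_1, b3TI_1, b3G00I_1, b3G01I_1, b3G11I_1],
    ![b4DI_1, b4VI_1, b4TI_1, b4G00I_1, b4G01I_1, b4G11I_1],
    ![b5DI_1, b5VI_1, b5TI_1, b5G00I_1, b5G01I_1, b5G11I_1],
    ![b6DI_1, b6VI_1, b6TI_1, b6G00I_1, b6G01I_1, b6G11I_1],
    ![b7DI_1, b7VI_1, b7TI_1, b7G00I_1, b7G01I_1, b7G11I_1],
    ![b8DI_1, b8VI_1, b8TI_1, b8G00I_1, b8G01I_1, b8G11I_1],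
    ![b9DI_1, b9VI_1, b9TI_1, b9G00I_1, b9G01I_1, b9G11I_1],
    ![b10DI_1, b10VI_1, b10TI_1, b10G00I_1, b10G01I_1, b10G11I_1],
    ![b11DI_1, b11VI_1, b11TI_1, b11G00I_1, b11G01I_1, b11G11I_1]]

/-- Block 2 of every output in frame I. -/
def tabI2 : Fin 12 → Fin 6 → Fin 3 → Fin 3 → Ex :=
  ![![b0DI_2, b0VI_2, b0TI_2, b0G00I_2, b0G01I_2, b0G11I_2],
    ![b1DI_2, b1VI_2, b1TI_2, b1G00I_2, b1G01I_2, b1G11I_2],
    ![b2DI_2, b2VI_2, b2TI_2, b2G00I_2, b2G01I_2, b2G11I_2],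
    ![b3DI_2, b3VI_2, b3TI_2, b3G00I_2, b3G01I_2, b3G11I_2],
    ![b4DI_2, b4VI_2, b4TI_2, b4G00I_2, b4G01I_2, b4G11I_2],
    ![b5DI_2, b5VI_2, b5TI_2, b5G00I_2, b5G01I_2, b5G11I_2],
    ![b6DI_2, b6VI_2, b6TI_2, b6G00I_2, b6G01I_2, b6G11I_2],
    ![b7DI_2, b7VI_2, b7TI_2, b7G00I_2, b7G01I_2, b7G11I_2],
    ![b8DI_2, b8VI_2, b8TI_2, b8G00I_2, b8G01I_2, b8G11I_2],
    ![b9DI_2, b9VI_2, b9TI_2, b9G00I_2, b9G01I_2, b9G11I_2],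
    ![b10DI_2, b10VI_2, b10TI_2, b10G00I_2, b10G01I_2, b10G11I_2],
    ![b11DI_2, b11VI_2, b11TI_2, b11G00I_2, b11G01I_2, b11G11I_2]]

/-- Block 0 of every output in frame II. -/
def tabII0 : Fin 12 → Fin 6 → Fin 9 → Fin 9 → Ex :=
  ![![b0DII_0, b0VII_0, b0TII_0, b0G00II_0, b0G01II_0, b0G11II_0],
    ![b1DII_0, b1VII_0, b1TII_0, b1G00II_0, b1G01II_0, b1G11II_0],
    ![b2DII_0, b2VII_0, b2TII_0, b2G00II_0, b2G01II_0, b2G11II_0],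
    ![b3DII_0, b3VII_0, b3TII_0, b3G00II_0, b3G01II_0, b3G11II_0],
    ![b4DII_0, b4VII_0, b4TII_0, b4G00II_0, b4G01II_0, b4G11II_0],
    ![b5DII_0, b5VII_0, b5TII_0, b5G00II_0, b5G01II_0, b5G11II_0],
    ![b6DII_0, b6VII_0, b6TII_0, b6G00II_0, b6G01II_0, b6G11II_0],
    ![b7DII_0, b7VII_0, b7TII_0, b7G00II_0, b7G01II_0, b7G11II_0],
    ![b8DII_0, b8VII_0, b8TII_0, b8G00II_0, b8G01II_0, b8G11II_0],
    ![b9DII_0, b9VII_0, b9TII_0, b9G00II_0, b9G01II_0, b9G11II_0],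
    ![b10DII_0, b10VII_0, b10TII_0, b10G00II_0, b10G01II_0, b10G11II_0],
    ![b11DII_0, b11VII_0, b11TII_0, b11G00II_0, b11G01II_0, b11G11II_0]]

/-- Block 1 of every output in frame II. -/
def tabII1 : Fin 12 → Fin 6 → Fin 5 → Fin 5 → Ex :=
  ![![b0DII_1, b0VII_1, b0TII_1, b0G00II_1, b0G01II_1, b0G11II_1],
    ![b1DII_1, b1VII_1, b1TII_1, b1G00II_1, b1G01II_1, b1G11II_1],
    ![b2DII_1, b2VII_1, b2TII_1, b2G00II_1, b2G01II_1, b2G11II_1],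
    ![b3DII_1, b3VII_1, b3TII_1, b3G00II_1, b3G01II_1, b3G11II_1],
    ![b4DII_1, b4VII_1, b4TII_1, b4G00II_1, b4G01II_1, b4G11II_1],
    ![b5DII_1, b5VII_1, b5TII_1, b5G00II_1, b5G01II_1, b5G11II_1],
    ![b6DII_1, b6VII_1, b6TII_1, b6G00II_1, b6G01II_1, b6G11II_1],
    ![b7DII_1, b7VII_1, b7TII_1, b7G00II_1, b7G01II_1, b7G11II_1],
    ![b8DII_1, b8VII_1, b8TII_1, b8G00II_1, b8G01II_1, b8G11II_1],
    ![b9DII_1, b9VII_1, b9TII_1, b9G00II_1, b9G01II_1, b9G11II_1],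
    ![b10DII_1, b10VII_1, b10TII_1, b10G00II_1, b10G01II_1, b10G11II_1],
    ![b11DII_1, b11VII_1, b11TII_1, b11G00II_1, b11G01II_1, b11G11II_1]]

/-- Block 2 of every output in frame II. -/
def tabII2 : Fin 12 → Fin 6 → Fin 3 → Fin 3 → Ex :=
  ![![b0DII_2, b0VII_2, b0TII_2, b0G00II_2, b0G01II_2, b0G11II_2],
    ![b1DII_2, b1VII_2, b1TII_2, b1G00II_2, b1G01II_2, b1G11II_2],
    ![b2DII_2, b2VII_2, b2TII_2, b2G00II_2, b2G01II_2, b2G11II_2],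
    ![b3DII_2, b3VII_2, b3TII_2, b3G00II_2, b3G01II_2, b3G11II_2],
    ![b4DII_2, b4VII_2, b4TII_2, b4G00II_2, b4G01II_2, b4G11II_2],
    ![b5DII_2, b5VII_2, b5TII_2, b5G00II_2, b5G01II_2, b5G11II_2],
    ![b6DII_2, b6VII_2, b6TII_2, b6G00II_2, b6G01II_2, b6G11II_2],
    ![b7DII_2, b7VII_2, b7TII_2, b7G00II_2, b7G01II_2, b7G11II_2],
    ![b8DII_2, b8VII_2, b8TII_2, b8G00II_2, b8G01II_2, b8G11II_2],
    ![b9DII_2, b9VII_2, b9TII_2, b9G00II_2, b9G01II_2, b9G11II_2],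
    ![b10DII_2, b10VII_2, b10TII_2, b10G00II_2, b10G01II_2, b10G11II_2],
    ![b11DII_2, b11VII_2, b11TII_2, b11G00II_2, b11G01II_2, b11G11II_2]]

theorem outsI (X Y Z : ℝ) (p : Par) (S₂ S₃ S₄ : Matrix (Fin 5) (Fin 5) ℝ) (b : Fin 12) (o : Fin 6) :
    outs (jetI X Y Z p S₂ S₃ S₄) b o =
      blocks X Y Z p (tabI0 b o) (tabI1 b o) (tabI2 b o) (Z ^ 2) Z 0 / (den b o : ℝ) := by
  fin_cases b <;> fin_cases o
  · exact b0DI X Y Z p S₂ S₃ S₄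
  · exact (b0VI X Y Z p S₂ S₃ S₄).trans (congrArg _ Nat.cast_one.symm)
  · exact (b0TI X Y Z p S₂ S₃ S₄).trans (congrArg _ Nat.cast_one.symm)
  · exact b0G00I X Y Z p S₂ S₃ S₄
  · exact b0G01I X Y Z p S₂ S₃ S₄
  · exact b0G11I X Y Z p S₂ S₃ S₄
  · exact b1DI X Y Z p S₂ S₃ S₄
  · exact (b1VI X Y Z p S₂ S₃ S₄).trans (congrArg _ Nat.cast_one.symm)
  · exact (b1TI X Y Z p S₂ S₃ S₄).trans (congrArg _ Nat.cast_one.symm)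
  · exact b1G00I X Y Z p S₂ S₃ S₄
  · exact b1G01I X Y Z p S₂ S₃ S₄
  · exact b1G11I X Y Z p S₂ S₃ S₄
  · exact b2DI X Y Z p S₂ S₃ S₄
  · exact b2VI X Y Z p S₂ S₃ S₄
  · exact b2TI X Y Z p S₂ S₃ S₄
  · exact b2G00I X Y Z p S₂ S₃ S₄
  · exact b2G01I X Y Z p S₂ S₃ S₄
  · exact b2G11I X Y Z p S₂ S₃ S₄
  · exact b3DI X Y Z p S₂ S₃ S₄
  · exact b3VI X Y Z p S₂ S₃ S₄
  · exact b3TI X Y Z p S₂ S₃ S₄
  · exact b3G00I X Y Z p S₂ S₃ S₄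
  · exact b3G01I X Y Z p S₂ S₃ S₄
  · exact b3G11I X Y Z p S₂ S₃ S₄
  · exact b4DI X Y Z p S₂ S₃ S₄
  · exact b4VI X Y Z p S₂ S₃ S₄
  · exact b4TI X Y Z p S₂ S₃ S₄
  · exact (b4G00I X Y Z p S₂ S₃ S₄).trans (congrArg _ Nat.cast_one.symm)
  · exact b4G01I X Y Z p S₂ S₃ S₄
  · exact b4G11I X Y Z p S₂ S₃ S₄
  · exact b5DI X Y Z p S₂ S₃ S₄
  · exact b5VI X Y Z p S₂ S₃ S₄
  · exact b5TI X Y Z p S₂ S₃ S₄
  · exact b5G00I X Y Z p S₂ S₃ S₄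
  · exact b5G01I X Y Z p S₂ S₃ S₄
  · exact b5G11I X Y Z p S₂ S₃ S₄
  · exact b6DI X Y Z p S₂ S₃ S₄
  · exact b6VI X Y Z p S₂ S₃ S₄
  · exact b6TI X Y Z p S₂ S₃ S₄
  · exact b6G00I X Y Z p S₂ S₃ S₄
  · exact b6G01I X Y Z p S₂ S₃ S₄
  · exact (b6G11I X Y Z p S₂ S₃ S₄).trans (congrArg _ Nat.cast_one.symm)
  · exact b7DI X Y Z p S₂ S₃ S₄
  · exact b7VI X Y Z p S₂ S₃ S₄
  · exact b7TI X Y Z p S₂ S₃ S₄
  · exact b7G00I X Y Z p S₂ S₃ S₄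
  · exact b7G01I X Y Z p S₂ S₃ S₄
  · exact b7G11I X Y Z p S₂ S₃ S₄
  · exact b8DI X Y Z p S₂ S₃ S₄
  · exact b8VI X Y Z p S₂ S₃ S₄
  · exact b8TI X Y Z p S₂ S₃ S₄
  · exact b8G00I X Y Z p S₂ S₃ S₄
  · exact b8G01I X Y Z p S₂ S₃ S₄
  · exact b8G11I X Y Z p S₂ S₃ S₄
  · exact b9DI X Y Z p S₂ S₃ S₄
  · exact b9VI X Y Z p S₂ S₃ S₄
  · exact b9TI X Y Z p S₂ S₃ S₄
  · exact (b9G00I X Y Z p S₂ S₃ S₄).trans (congrArg _ Nat.cast_one.symm)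
  · exact b9G01I X Y Z p S₂ S₃ S₄
  · exact b9G11I X Y Z p S₂ S₃ S₄
  · exact b10DI X Y Z p S₂ S₃ S₄
  · exact b10VI X Y Z p S₂ S₃ S₄
  · exact b10TI X Y Z p S₂ S₃ S₄
  · exact b10G00I X Y Z p S₂ S₃ S₄
  · exact b10G01I X Y Z p S₂ S₃ S₄
  · exact b10G11I X Y Z p S₂ S₃ S₄
  · exact b11DI X Y Z p S₂ S₃ S₄
  · exact b11VI X Y Z p S₂ S₃ S₄
  · exact b11TI X Y Z p S₂ S₃ S₄
  · exact b11G00I X Y Z p S₂ S₃ S₄
  · exact b11G01I X Y Z p S₂ S₃ S₄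
  · exact (b11G11I X Y Z p S₂ S₃ S₄).trans (congrArg _ Nat.cast_one.symm)

theorem outsII (X Y Z : ℝ) (p : Par) (S₂ S₃ S₄ : Matrix (Fin 5) (Fin 5) ℝ) (b : Fin 12) (o : Fin 6) :
    outs (jetII X Y Z p S₂ S₃ S₄) b o =
      blocks X Y Z p (tabII0 b o) (tabII1 b o) (tabII2 b o) (X ^ 2 + Y ^ 2) X Y / (den b o : ℝ) := by
  fin_cases b <;> fin_cases o
  · exact b0DII X Y Z p S₂ S₃ S₄
  · exact (b0VII X Y Z p S₂ S₃ S₄).trans (congrArg _ Nat.cast_one.symm)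
  · exact (b0TII X Y Z p S₂ S₃ S₄).trans (congrArg _ Nat.cast_one.symm)
  · exact b0G00II X Y Z p S₂ S₃ S₄
  · exact b0G01II X Y Z p S₂ S₃ S₄
  · exact b0G11II X Y Z p S₂ S₃ S₄
  · exact b1DII X Y Z p S₂ S₃ S₄
  · exact (b1VII X Y Z p S₂ S₃ S₄).trans (congrArg _ Nat.cast_one.symm)
  · exact (b1TII X Y Z p S₂ S₃ S₄).trans (congrArg _ Nat.cast_one.symm)
  · exact b1G00II X Y Z p S₂ S₃ S₄
  · exact b1G01II X Y Z p S₂ S₃ S₄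
  · exact b1G11II X Y Z p S₂ S₃ S₄
  · exact b2DII X Y Z p S₂ S₃ S₄
  · exact b2VII X Y Z p S₂ S₃ S₄
  · exact b2TII X Y Z p S₂ S₃ S₄
  · exact b2G00II X Y Z p S₂ S₃ S₄
  · exact b2G01II X Y Z p S₂ S₃ S₄
  · exact b2G11II X Y Z p S₂ S₃ S₄
  · exact b3DII X Y Z p S₂ S₃ S₄
  · exact b3VII X Y Z p S₂ S₃ S₄
  · exact b3TII X Y Z p S₂ S₃ S₄
  · exact b3G00II X Y Z p S₂ S₃ S₄
  · exact b3G01II X Y Z p S₂ S₃ S₄
  · exact b3G11II X Y Z p S₂ S₃ S₄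
  · exact b4DII X Y Z p S₂ S₃ S₄
  · exact b4VII X Y Z p S₂ S₃ S₄
  · exact b4TII X Y Z p S₂ S₃ S₄
  · exact (b4G00II X Y Z p S₂ S₃ S₄).trans (congrArg _ Nat.cast_one.symm)
  · exact b4G01II X Y Z p S₂ S₃ S₄
  · exact b4G11II X Y Z p S₂ S₃ S₄
  · exact b5DII X Y Z p S₂ S₃ S₄
  · exact b5VII X Y Z p S₂ S₃ S₄
  · exact b5TII X Y Z p S₂ S₃ S₄
  · exact b5G00II X Y Z p S₂ S₃ S₄
  · exact b5G01II X Y Z p S₂ S₃ S₄
  · exact b5G11II X Y Z p S₂ S₃ S₄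
  · exact b6DII X Y Z p S₂ S₃ S₄
  · exact b6VII X Y Z p S₂ S₃ S₄
  · exact b6TII X Y Z p S₂ S₃ S₄
  · exact b6G00II X Y Z p S₂ S₃ S₄
  · exact b6G01II X Y Z p S₂ S₃ S₄
  · exact (b6G11II X Y Z p S₂ S₃ S₄).trans (congrArg _ Nat.cast_one.symm)
  · exact b7DII X Y Z p S₂ S₃ S₄
  · exact b7VII X Y Z p S₂ S₃ S₄
  · exact b7TII X Y Z p S₂ S₃ S₄
  · exact b7G00II X Y Z p S₂ S₃ S₄
  · exact b7G01II X Y Z p S₂ S₃ S₄
  · exact b7G11II X Y Z p S₂ S₃ S₄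
  · exact b8DII X Y Z p S₂ S₃ S₄
  · exact b8VII X Y Z p S₂ S₃ S₄
  · exact b8TII X Y Z p S₂ S₃ S₄
  · exact b8G00II X Y Z p S₂ S₃ S₄
  · exact b8G01II X Y Z p S₂ S₃ S₄
  · exact b8G11II X Y Z p S₂ S₃ S₄
  · exact b9DII X Y Z p S₂ S₃ S₄
  · exact b9VII X Y Z p S₂ S₃ S₄
  · exact b9TII X Y Z p S₂ S₃ S₄
  · exact (b9G00II X Y Z p S₂ S₃ S₄).trans (congrArg _ Nat.cast_one.symm)
  · exact b9G01II X Y Z p S₂ S₃ S₄
  · exact b9G11II X Y Z p S₂ S₃ S₄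
  · exact b10DII X Y Z p S₂ S₃ S₄
  · exact b10VII X Y Z p S₂ S₃ S₄
  · exact b10TII X Y Z p S₂ S₃ S₄
  · exact b10G00II X Y Z p S₂ S₃ S₄
  · exact b10G01II X Y Z p S₂ S₃ S₄
  · exact b10G11II X Y Z p S₂ S₃ S₄
  · exact b11DII X Y Z p S₂ S₃ S₄
  · exact b11VII X Y Z p S₂ S₃ S₄
  · exact b11TII X Y Z p S₂ S₃ S₄
  · exact b11G00II X Y Z p S₂ S₃ S₄
  · exact b11G01II X Y Z p S₂ S₃ S₄
  · exact (b11G11II X Y Z p S₂ S₃ S₄).trans (congrArg _ Nat.cast_one.symm)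

theorem den_pos : ∀ b o, 0 < den b o := by decide +kernel

end

end Vale.Agent.P252.General.Cert5
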