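import Vale.Agent.P252.Cert.DDCheck

/-!
# The root triangles of the frame region
-/

namespace Vale.Agent.P252.General.Cert5

open Finset Vale.Agent.P100T.PosCheck Vale.Agent.P252.PolyPSD

noncomputable section

/-- The four root triangles. -/
def roots : Fin 4 → Tri :=
  ![⟨((-65536), 0, 65536), (0, 0, 65536), ((-65536), 65536, 65536)⟩,
    ⟨(0, 0, 65536), (0, 65536, 65536), ((-65536), 65536, 65536)⟩,
    ⟨(0, 0, 65536), (65536, 0, 65536), (65536, 65536, 65536)⟩,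
    ⟨(0, 0, 65536), (65536, 65536, 65536), (0, 65536, 65536)⟩]

/-- The roots cover `|X| ≤ Z`, `0 ≤ Y ≤ Z`. -/
theorem roots_cover {X Y Z : ℝ} (hX : |X| ≤ Z) (hY : 0 ≤ Y) (hYZ : Y ≤ Z) :
    ∃ i a b c, 0 ≤ a ∧ 0 ≤ b ∧ 0 ≤ c ∧ (roots i).pt a b c = (X, Y, Z) := by
  obtain ⟨h1, h2⟩ := abs_le.1 hX
  rcases le_total X 0 with hn | hn
  · rcases le_total (X + Y) 0 with hs | hs
    · refine ⟨0, (-X - Y) / 65536, (Z + X) / 65536, Y / 65536, by linarith, by linarith, by linarith, ?_⟩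
      simp [roots, Tri.pt] <;> ring_nf
    · refine ⟨1, (Z - Y) / 65536, (Y + X) / 65536, -X / 65536, by linarith, by linarith, by linarith, ?_⟩
      simp [roots, Tri.pt] <;> ring_nf
  · rcases le_total Y X with hs | hs
    · refine ⟨2, (Z - X) / 65536, (X - Y) / 65536, Y / 65536, by linarith, by linarith, by linarith, ?_⟩
      simp [roots, Tri.pt] <;> ring_nf
    · refine ⟨3, (Z - Y) / 65536, X / 65536, (Y - X) / 65536, by linarith, by linarith, by linarith, ?_⟩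
      simp [roots, Tri.pt] <;> ring_nf

/-- A form that is nonnegative on the roots is nonnegative on the region. -/
theorem qf_nonneg_of_roots {m : ℕ} {M : Fin m → Fin m → Ex} (hM : ∀ i, PosOn M (roots i))
    {X Y Z : ℝ} (hX : |X| ≤ Z) (hY : 0 ≤ Y) (hYZ : Y ≤ Z) (ξ : Fin m → ℝ) :
    0 ≤ ∑ k, ∑ l, ξ k * evalAt (M k l) (X, Y, Z) * ξ l := by
  obtain ⟨i, a, b, c, ha, hb, hc, hp⟩ := roots_cover hX hY hYZ
  have h := hM i a b c ha hb hc ξ
  rwa [hp] at h

end

end Vale.Agent.P252.General.Cert5
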